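import Vale.Agent.P284.MathlibUsed

/-! Complex manifolds modelled on a finite-dimensional complex normed space `E`, i.e. with Mathlib's
`IsManifold 𝓘(ℂ, E) ω X`; the dimension of `X` is `Module.finrank ℂ E`. -/

namespace Vale.Agent.P284

open Set
open scoped Manifold ContDiff

universe u

variable {E : Type} [NormedAddCommGroup E] [NormedSpace ℂ E]
  {X : Type u} [TopologicalSpace X] [ChartedSpace E X]

/-- The complex line `t ↦ x + t v` in the preferred chart at `x`. -/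
noncomputable def line (x : X) (v : E) (t : ℂ) : X := (chartAt E x).symm (chartAt E x x + t • v)

/-- The Levi form `4 ∂∂̄φ (v, v̄)` of a real function `φ` at `x` in direction `v`, computed in the
preferred chart at `x`: the Laplacian at `0` of `t ↦ φ (x + t v)`. -/
noncomputable def leviForm (φ : X → ℝ) (x : X) (v : E) : ℝ :=
  iteratedDeriv 2 (fun t : ℝ => φ (line x v t)) 0 +
    iteratedDeriv 2 (fun t : ℝ => φ (line x v (t * Complex.I))) 0

/-- The derivative of `f` at `x` in direction `v`, in the preferred chart at `x`. -/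
noncomputable def dirDeriv (f : X → ℂ) (x : X) (v : E) : ℂ := deriv (fun t => f (line x v t)) 0

variable (E X) in
/-- `X` carries a Kähler metric: there are smooth local potentials `φ x` near each point `x`
with positive definite Levi form `i∂∂̄φ`, and these forms agree on overlaps. -/
def IsKahler : Prop :=
  ∃ (U : X → Set X) (φ : X → X → ℝ),
    (∀ x, IsOpen (U x) ∧ x ∈ U x ∧ ContMDiffOn 𝓘(ℝ, E) 𝓘(ℝ, ℝ) ∞ (φ x) (U x)) ∧
    (∀ x, ∀ y ∈ U x, ∀ v : E, v ≠ 0 → 0 < leviForm (φ x) y v) ∧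
    ∀ x x' y, y ∈ U x → y ∈ U x' → ∀ v : E, leviForm (φ x) y v = leviForm (φ x') y v

variable (E) in
/-- `f` is holomorphic on `U`. -/
def HolOn (f : X → ℂ) (U : Set X) : Prop := MDifferentiableOn 𝓘(ℂ, E) 𝓘(ℂ, ℂ) f U

variable (E) in
/-- The open cover `U` and the transition functions `g` define a holomorphic line bundle `B`. -/
def IsBundle {ι : Type} (U : ι → Set X) (g : ι → ι → X → ℂ) : Prop :=
  (∀ i, IsOpen (U i)) ∧ (∀ x, ∃ i, x ∈ U i) ∧ (∀ i j, HolOn E (g i j) (U i ∩ U j)) ∧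
    (∀ i j x, x ∈ U i → x ∈ U j → g i j x ≠ 0) ∧
    ∀ i j k x, x ∈ U i → x ∈ U j → x ∈ U k → g i j x * g j k x = g i k x

variable (E) in
/-- The functions `s i` are the local components of a global section of `B^{⊗ m}`. -/
def IsSection {ι : Type} (U : ι → Set X) (g : ι → ι → X → ℂ) (m : ℕ) (s : ι → X → ℂ) : Prop :=
  (∀ i, HolOn E (s i) (U i)) ∧ ∀ i j x, x ∈ U i → x ∈ U j → s i x = g i j x ^ m * s j x

variable (E) in
/-- `κ(X, B) ≥ d`: for some `m ≥ 1` the meromorphic map defined by `|B^{⊗ m}|` has image of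
dimension at least `d`, i.e. there are sections `s, σ₁, …, σ_d` of `B^{⊗ m}` and a point where
`s ≠ 0` and the differentials of `σ₁/s, …, σ_d/s` are linearly independent (nonzero minor). -/
def IitakaGe {ι : Type} (U : ι → Set X) (g : ι → ι → X → ℂ) (d : ℕ) : Prop :=
  ∃ m, 1 ≤ m ∧ ∃ (s : ι → X → ℂ) (σ : Fin d → ι → X → ℂ), IsSection E U g m s ∧
    (∀ a, IsSection E U g m (σ a)) ∧ ∃ i x, x ∈ U i ∧ s i x ≠ 0 ∧ ∃ v : Fin d → E,
      Matrix.det (fun a b => dirDeriv (fun y => σ a i y / s i y) x (v b)) ≠ 0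

/-- `η` defines a sheaf morphism `B → Ω_X^p`: `η i` is the holomorphic `p`-form on `U i` which is
the image of the local frame `e_i` of `B`, where `e_j = g_ij e_i`; it is given by its expression
`η i c` in each chart `c`. -/
def IsMorphism {ι : Type} (U : ι → Set X) (g : ι → ι → X → ℂ) {p : ℕ}
    (η : ι → OpenPartialHomeomorph X E → E → E [⋀^Fin p]→L[ℂ] ℂ) : Prop :=
  (∀ i, ∀ c ∈ atlas E X, DifferentiableOn ℂ (η i c) (c.target ∩ c.symm ⁻¹' U i)) ∧
  (∀ i, ∀ c ∈ atlas E X, ∀ c' ∈ atlas E X, ∀ x ∈ U i, x ∈ c.source → x ∈ c'.source →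
    η i c (c x) = (η i c' (c' x)).compContinuousLinearMap (fderiv ℂ (c' ∘ c.symm) (c x))) ∧
  ∀ i j, ∀ c ∈ atlas E X, ∀ x ∈ U i, x ∈ U j → x ∈ c.source →
    η j c (c x) = g i j x • η i c (c x)

variable (E X) in
/-- `X` is special: for `1 ≤ p ≤ n = dim X`, no line bundle `B` with `κ(X, B) = p` admits a nonzero
morphism `B → Ω_X^p`. -/
def IsSpecial : Prop :=
  ∀ p : ℕ, 1 ≤ p → p ≤ Module.finrank ℂ E → ∀ (ι : Type) (U : ι → Set X) (g : ι → ι → X → ℂ),
    IsBundle E U g → IitakaGe E U g p → ¬ IitakaGe E U g (p + 1) →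
    ∀ η : ι → OpenPartialHomeomorph X E → E → E [⋀^Fin p]→L[ℂ] ℂ, IsMorphism U g η →
      ∀ i, ∀ c ∈ atlas E X, ∀ x ∈ U i, x ∈ c.source → η i c (c x) = 0

end Vale.Agent.P284
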