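import Mathlib.Algebra.AffineMonoid.Basic
import Mathlib.Algebra.Group.MinimalAxioms
import Mathlib.AlgebraicTopology.FundamentalGroupoid.FundamentalGroup
import Mathlib.Analysis.CStarAlgebra.Classes
import Mathlib.Analysis.Complex.Polynomial.Basic
import Mathlib.Geometry.Manifold.ContMDiff.Defs
import Mathlib.Geometry.Manifold.MFDeriv.Defs
import Mathlib.GroupTheory.FiniteAbelian.Basic
import Mathlib.GroupTheory.Schreier
import Mathlib.LinearAlgebra.Eigenspace.Triangularizable
import Mathlib.LinearAlgebra.Matrix.FiniteDimensional
import Mathlib.RingTheory.Flat.TorsionFree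
import Mathlib.RingTheory.PicardGroup
import Mathlib.RingTheory.RegularLocalRing.Defs
import Mathlib.RingTheory.SimpleRing.Principal
import Mathlib.Tactic

/-! The part of Mathlib that the development of this folder uses. -/
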